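import Crest.Agent.X212.Std94.Model
import Crest.Agent.X212.Dfl49.Hom

-- ▼ part X212/Clr59/Q
section

/-!
# Row 212, P-CLR (helper59), file 1: quaternions

`inner` : automorphisms are inner;  `conj` : conjugacy classes;  `comm` : commutants;  `ex`, `polar`.
-/

set_option autoImplicit false
noncomputable section
open Quaternion Real
open scoped InnerProductSpace

namespace Crest.Agent.X212.Clr59
open Std94 (qe inner_q)

variable {a k k' n : ℍ} {s t : ℝ}

theorem unit_iff : ‖k‖ = 1 ↔ k.re ^ 2 + k.imI ^ 2 + k.imJ ^ 2 + k.imK ^ 2 = 1 := by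
  rw [← normSq_def', normSq_eq_norm_mul_self, mul_self_eq_one_iff, or_iff_left (by linarith [norm_nonneg k])]

theorem star_mul_unit (h : ‖k‖ = 1) : star k * k = 1 := by
  rw [star_mul_self, normSq_eq_norm_mul_self, h, mul_one, coe_one]

theorem mul_star_unit (h : ‖k‖ = 1) : k * star k = 1 := by
  rw [self_mul_star, normSq_eq_norm_mul_self, h, mul_one, coe_one]

theorem exists_unit {P : ℍ → Prop} (h : P a) (h0 : a ≠ 0) (hs : ∀ (r : ℝ) b, P b → P (r • b)) :
    ∃ b, ‖b‖ = 1 ∧ P b := ⟨_, norm_smul_inv_norm (𝕜 := ℝ) h0, hs _ _ h⟩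

/-- automorphisms of the quaternions are inner -/
theorem inner (Φ : ℍ →ₗ[ℝ] ℍ) (h1 : Φ 1 = 1) (hm : ∀ a b, Φ (a * b) = Φ a * Φ b) :
    ∃ k, ‖k‖ = 1 ∧ ∀ a, Φ a = k * a * star k := by
  have d : ∀ a : ℍ, a = a.re • 1 + a.imI • qe 1 + a.imJ • qe 2 + a.imK • qe 3 := fun a => by
    ext <;> simp [qe]
  have m : ∀ {i j : Fin 4} {l : ℍ}, qe i * qe j = l → Φ (qe i) * Φ (qe j) = Φ l := fun e => e ▸ (hm _ _).symm
  let c : ℍ → ℍ := fun b => b - Φ (qe 1) * b * qe 1 - Φ (qe 2) * b * qe 2 - Φ (qe 3) * b * qe 3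
  have q : ∀ i j, qe i * qe j = ![![qe 0, qe 1, qe 2, qe 3], ![qe 1, -1, qe 3, -qe 2], ![qe 2, -qe 3, -1, qe 1],
      ![qe 3, qe 2, -qe 1, -1]] i j := fun i j => by
    fin_cases i <;> fin_cases j <;> ext <;> simp [qe]
  have e : ∀ b a, Φ a * c b = c b * a := fun b a => by
    have k : ∀ i : Fin 3, Φ (qe i.succ) * c b = c b * qe i.succ := fun i => by
      simp only [c, mul_sub, sub_mul, ← mul_assoc, m (q _ _)]
      simp only [mul_assoc, q]
      fin_cases i <;> simp [h1] <;> abel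
    rw [d a]
    simp only [map_add, map_smul, h1, add_mul, mul_add, smul_mul_assoc, mul_smul_comm, one_mul, mul_one]
    rw [show Φ (qe 1) * c b = _ from k 0, show Φ (qe 2) * c b = _ from k 1, show Φ (qe 3) * c b = _ from k 2]
    rfl
  obtain ⟨b, hb⟩ : ∃ b, c b ≠ 0 := by
    by_contra! z
    have : c 1 - c (qe 1) * qe 1 - c (qe 2) * qe 2 - c (qe 3) * qe 3 = 4 := by
      simp only [c, sub_mul, mul_assoc, q]
      simp [q]
      abel_nf
      norm_num
    simp only [z, zero_mul, sub_zero] at this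
    exact (by norm_num : (0 : ℝ) ≠ 4) (congrArg QuaternionAlgebra.re this)
  obtain ⟨k, k1, k2⟩ := exists_unit (P := fun k => ∀ a, Φ a * k = k * a) (e b) hb fun r b h a => by
    rw [mul_smul_comm, h, smul_mul_assoc]
  exact ⟨k, k1, fun a => by rw [← k2, mul_assoc, mul_star_unit k1, mul_one]⟩

/-- units with the same real part are conjugate -/
theorem conj (h : ‖k‖ = 1) (h' : ‖k'‖ = 1) (e : k.re = k'.re) : ∃ a, ‖a‖ = 1 ∧ k' * a = a * k := by
  rw [unit_iff] at h h'
  have m : ∀ b : ℍ, k' * (k'.im * b + b * k.im) = (k'.im * b + b * k.im) * k := fun b => by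
    ext <;> simp [← e] <;> grind
  have z : ∀ {a : ℍ}, a ≠ 0 → k' * a = a * k → ∃ a, ‖a‖ = 1 ∧ k' * a = a * k := fun h0 h =>
    exists_unit (P := fun a => k' * a = a * k) h h0 fun r b h => by rw [mul_smul_comm, h, smul_mul_assoc]
  by_contra u
  have w := fun b => not_not.1 fun h0 => u (z h0 (m b))
  have w0 := w 1; have w1 := w (qe 1); have w2 := w (qe 2)
  simp only [Quaternion.ext_iff, qe] at w0 w1 w2
  simp at w0 w1 w2
  exact u (z one_ne_zero (by ext <;> simp [e] <;> linarith))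

theorem re_conj (h0 : a ≠ 0) (e : k' * a = a * k) : k.re = k'.re := by
  have : (star a * (k' * a)).re = (star a * (a * k)).re := by rw [e]
  refine mul_left_cancel₀ (normSq_ne_zero.2 h0) ?_
  rw [normSq_def']
  simp at this
  linarith

/-- the commutant of an imaginary unit -/
theorem comm (h : n.re = 0) (h1 : ‖n‖ = 1) (e : a * n = n * a) : a = a.re + ⟪a, n⟫_ℝ • n := by
  rw [unit_iff, h] at h1
  simp only [Quaternion.ext_iff] at e
  simp [h] at e
  rw [inner_q]
  ext <;> simp [h] <;> grind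

/-- the exponential -/
def ex (t : ℝ) (n : ℍ) : ℍ := cos t + sin t • n

theorem ex_mul (h : n.re = 0) (h1 : ‖n‖ = 1) (s t : ℝ) : ex s n * ex t n = ex (s + t) n := by
  rw [unit_iff, h] at h1
  ext <;> simp [ex, h, cos_add, sin_add] <;> grind

theorem star_ex (h : n.re = 0) (t : ℝ) : star (ex t n) = ex (-t) n := by
  ext <;> simp [ex, h]

theorem ex_zero : ex 0 n = 1 := by simp [ex]

theorem ex_re (h : n.re = 0) (t : ℝ) : (ex t n).re = cos t := by simp [ex, h]

theorem norm_ex (h : n.re = 0) (h1 : ‖n‖ = 1) (t : ℝ) : ‖ex t n‖ = 1 := by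
  rw [unit_iff] at h1 ⊢
  simp [ex, h] at h1 ⊢
  grind [sin_sq_add_cos_sq t]

theorem ex_neg : ex t (-n) = ex (-t) n := by simp [ex]

/-- the polar form -/
theorem polar (h : ‖k‖ = 1) : ∃ n, n.re = 0 ∧ ‖n‖ = 1 ∧ k = ex (arccos k.re) n := by
  have h2 := unit_iff.1 h
  have c : cos (arccos k.re) = k.re := cos_arccos (by nlinarith) (by nlinarith)
  have e : sin (arccos k.re) = ‖k.im‖ := by
    rw [sin_arccos, sqrt_eq_iff_mul_self_eq (by nlinarith) (norm_nonneg _), ← normSq_eq_norm_mul_self, normSq_def']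
    simp
    linarith
  by_cases z : k.im = 0
  · exact ⟨qe 1, rfl, by simp [unit_iff, qe], by rw [ex, c, e, z, norm_zero, zero_smul, ← z, re_add_im]⟩
  · exact ⟨‖k.im‖⁻¹ • k.im, by simp, norm_smul_inv_norm (𝕜 := ℝ) z, by
      rw [ex, c, e, smul_inv_smul₀ (norm_ne_zero_iff.2 z), re_add_im]⟩

end Crest.Agent.X212.Clr59
end
end

-- ▼ part X212/Clr59/Hl

/-!
# Row 212, P-CLR (helper59), file 2: holonomy along a cover by two simply connected sets

`PS` : parallel intertwiners;  `Cv` : the cover with its angle;  `Hl` : the holonomy relation;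
`gx`, `hl_tw` : adding `s ν ξ`.
-/

set_option autoImplicit false
set_option linter.unusedSectionVars false
noncomputable section
open Set Function Filter Topology Quaternion Real
open scoped ContDiff Manifold InnerProductSpace

namespace Crest.Agent.X212.Clr59
open An Sob92 Wz78 Pj41 Dfl49
open Std94 (Itx Pix Fx Bx Xi S4 hs pmx Xi_comp trn_Xi Xi_inj hs_Xi)

variable {E : Type} [NormedAddCommGroup E] [NormedSpace ℝ E] [FiniteDimensional ℝ E]
  [MeasurableSpace E] [BorelSpace E]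
  {HM : Type} [TopologicalSpace HM] {I : ModelWithCorners ℝ E HM} [I.Boundaryless]
  {M : Type} [TopologicalSpace M] [ChartedSpace HM M] [IsManifold I ∞ M]
  [MeasurableSpace M] {ι : Type} [Fintype ι] {lam : Type} [Fintype lam]
  {B : Base M ι lam} {G : Geo I M ι lam} {m m' m'' : Md M ι lam} {W : m.Cn} {W' : m'.Cn} {W'' : m''.Cn}
  {S O C : Set M} {x : M} {u v : M → CL m.V m'.V} {ξ : M → m.A}

variable (B G) in
/-- admissible connections -/
structure Ad (W : m.Cn) : Prop where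
  hB : B.OK I
  hG : G.F.P = B.P
  ok : m.OK I B
  cn : m.IsConn B G W

variable (B G) in
/-- flat connections -/
structure Fl (W : m.Cn) : Prop extends Ad B G W where
  fl : ∀ x, m.Fg G.F W x = 0

theorem Ad.two (h : Ad B G W) (h' : Ad B G W') (hS : IsOpen S) : Two B G W W' S :=
  ⟨h.hB, h.hG, hS, OK.on h.ok S, OK.on h'.ok S, IsConn.on h.cn S, IsConn.on h'.cn S⟩

variable (G) in
/-- parallel intertwiners -/
structure PS (W : m.Cn) (W' : m'.Cn) (S : Set M) (u : M → CL m.V m'.V) : Prop where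
  sm : ∀ x ∈ S, SA I u x
  it : ∀ x ∈ S, Itx m m' x (u x)
  par : Par0 G.F W W' S u

namespace PS
variable (k : PS G W W' S u)
include k

theorem mono (h : O ⊆ S) : PS G W W' O u := ⟨fun x hx => k.sm x (h hx), fun x hx => k.it x (h hx), k.par.mono h⟩

theorem comp {w : M → CL m'.V m''.V} (k' : PS G W' W'' S w) : PS G W W'' S fun x => w x ∘L u x :=
  ⟨fun x hx => FSm.cc (k'.sm x hx) (k.sm x hx), fun x hx => itx_comp (k.it x hx) (k'.it x hx),
    k.par.trans k'.par k.sm k'.sm⟩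

theorem trn (h : Ad B G W) (h' : Ad B G W') : PS G W' W S fun x => trn (u x) := by
  have := k.par.symm k.sm (fun a x _ => h.cn.sk a x) fun a x _ => h'.cn.sk a x
  have s := fun x hx => FSm.ad (k.sm x hx)
  simp only [ad_trn] at this s
  exact ⟨s, fun x hx => itx_trn (pmx h.ok x) (pmx h'.ok x) (k.it x hx), this⟩

theorem lin (k' : PS G W W' S v) (r : ℝ) : PS G W W' S fun x => u x + r • v x := by
  refine ⟨fun x hx => (k.sm x hx).add (SA.smul contMDiffAt_const (k'.sm x hx)), fun x hx => ?_, fun x hx a => ?_⟩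
  · have i := k.it x hx
    have i' := k'.it x hx
    exact ⟨fun y => by simp [i.pl, i'.pl], fun y => by simp [i.pr, i'.pr], fun a y => by simp [i.ρ, i'.ρ],
      fun y => by simp [i.J, i'.J], fun s y => by simp [i.j, i'.j]⟩
  · have := k.par x hx a
    have := k'.par x hx a
    rw [Pre.D_def, ← nab_hA] at *
    rw [nab_add a (k.sm x hx) (SA.smul contMDiffAt_const (k'.sm x hx)), nab_csmul a _ (k'.sm x hx)]
    simp [*]

theorem pa (h : Two B G W W' S) : ∀ x ∈ S, PA G.F (hA W W') (Pix m m') u x := fun x hx =>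
  ⟨k.sm x hx, (h.pix hx).2 (k.it x hx), fun a => by rw [nab_hA]; exact k.par x hx a⟩

theorem eqOn (k' : PS G W W' S v) (h : Ad B G W) (h' : Ad B G W') (hS : IsOpen S) (hC : IsPreconnected C)
    (s : C ⊆ S) (hx : x ∈ C) (e : u x = v x) : EqOn u v C :=
  have t := h.two h' hS
  par_eqOn hS hC s (fun a _ hx => t.sA hx a) (fun a _ hx => t.pA hx a)
    (fun y hy => ⟨k.sm y hy, (k.pa t y hy).par⟩) (fun y hy => ⟨k'.sm y hy, (k'.pa t y hy).par⟩) hx e

theorem iso (h : Ad B G W) (h' : Ad B G W') (hS : IsOpen S) (n : ∀ x ∈ S, hs (u x) (u x) = 16) :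
    Iso0 I m m' S u := (h.two h' hS).iso0_of (k.pa (h.two h' hS)) n

end PS

theorem ps_of (h : Two B G W W' S) (k : ∀ x ∈ S, PA G.F (hA W W') (Pix m m') u x) : PS G W W' S u :=
  ⟨fun x hx => (k x hx).sm, fun x hx => (h.pix hx).1 (k x hx).mem, h.par0_of k⟩

theorem ps_iso (h : Ad B G W) (h' : Ad B G W') (hS : IsOpen S) (i : Iso0 I m m' S u) (p : Par0 G.F W W' S u) :
    PS G W W' S u := ps_of (h.two h' hS) ((h.two h' hS).pa_of Subset.rfl i p)

theorem ps_p (h : Ad B G W) : PS G W W univ m.p :=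
  ps_iso h h isOpen_univ (Iso0.refl (OK.on h.ok _)) (IsConn.on h.cn _).par0_refl

theorem PS.nrm (k : PS G W W' S u) (h : Ad B G W) (h' : Ad B G W') (hS : IsOpen S) (hC : IsPreconnected S)
    (hx : x ∈ S) {y : M} (hy : y ∈ S) : hs (u y) (u y) = hs (u x) (u x) := by
  have n := fun x hx => (Std94.itx_norm h.hB (pmx h.ok x) (pmx h'.ok x) (k.it x hx)).1
  have p := (ps_p h).mono (subset_univ S)
  have := (k.comp (k.trn h h')).eqOn (p.lin p (hs (u x) (u x) / 16 - 1)) h h hS hC Subset.rfl hx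
    (by simp only [n x hx, sub_smul, one_smul, add_sub_cancel]) hy
  simp only [n y hy, sub_smul, one_smul, add_sub_cancel] at this
  have e := congrArg (fun T : En (Fin m.N) => LinearMap.trace ℝ _ (T : m.V →ₗ[ℝ] m.V)) this
  simp only [ContinuousLinearMap.toLinearMap_smul, map_smul, h.ok.prk y, smul_eq_mul] at e
  linarith

theorem exists_ps (h : Fl B G W) (h' : Fl B G W') (hS : IsOpen S) (hx : x ∈ S) (s : Sur {x} S) {T : CL m.V m'.V}
    (i : Itx m m' x T) : ∃ u, PS G W W' S u ∧ u x = T := by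
  have t := h.two h'.toAd hS
  have f := t.flt (fun x _ => h.fl x) fun x _ => h'.fl x
  obtain ⟨U, h1, -, -, h4⟩ := f.exists_loc hx
  obtain ⟨v, k1, k2⟩ := h4 x (mem_of_mem_nhds h1) T ((t.pix hx).2 i)
  obtain ⟨w, w1, w2⟩ := s _ _ f.ls v (by rintro _ rfl; exact mem_of_superset h1 k2)
  exact ⟨w, ps_of t fun y hy => (w1 y hy).self_of_nhds, (w2 rfl).trans k1⟩

theorem PS.congr (k : PS G W W' S u) (hS : IsOpen S) (e : EqOn v u S) : PS G W W' S v :=
  ⟨fun x hx => (k.sm x hx).congr_of_eventuallyEq (e.eventuallyEq_of_mem (hS.mem_nhds hx)),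
    fun x hx => e hx ▸ k.it x hx, fun x hx a => by
      rw [Pre.D_def, dv_congr (e.eventuallyEq_of_mem (hS.mem_nhds hx)), e hx]; exact k.par x hx a⟩

/-- parallel sections of `g` -/
theorem ps_g (h : Ad B G W) (s : Sm I ξ) (g : ∀ x, ξ x ∈ m.gS x) (p : ∀ a x, nab I G.F.e (m.adW W) a ξ x = 0) :
    PS G W W univ fun x => opL (ξ x) :=
  ⟨fun x _ => SA.clm opL (s x), fun x _ => let ⟨_, _, _, f⟩ := Std94.exists_fx h.hB (pmx h.ok x); f.itx_of_mem (g x),
    fun x _ a => by
      have := opL_nab (e := G.F.e) (W := W) a (s x)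
      rw [p, map_zero] at this
      exact (add_sub_assoc _ _ _).trans this⟩

theorem PS.g [PreconnectedSpace M] {T : M → En (Fin m.N)} (k : PS G W W univ T) (h : Ad B G W) (s : Skw (T x)) :
    Sm I (fun y => hsL (T y)) ∧ (∀ y, hsL (T y) ∈ m.gS y) ∧
      ∀ a y, nab I G.F.e (m.adW W) a (fun y => hsL (T y)) y = 0 := by
  have z := (k.lin k (-2)).eqOn (k.trn h h) h h isOpen_univ isPreconnected_univ Subset.rfl (mem_univ x)
    (ContinuousLinearMap.ext fun v => ext_inner_right ℝ fun w => by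
      simp [Eqv71.inner_trn, inner_add_left, inner_smul_left, s v w]; ring)
  refine ⟨fun y => SA.clm hsL (k.sm y trivial), fun y => Std94.Fx.mem_of_itx (k.it y trivial) fun v w => ?_,
    fun a y => by rw [hsL_nab a (k.sm y trivial), nabE, ← add_sub_assoc]; exact (congrArg _ (k.par y trivial a)).trans (map_zero _)⟩
  have := congrArg (fun S : En _ => ⟪S v, w⟫_ℝ) (z (mem_univ y))
  simp [Eqv71.inner_trn, inner_add_left, inner_smul_left] at this
  linarith

/-- a cover by two simply connected sets, with the branches of an angle -/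
structure Cv (F : Fr I M ι) (ν : ι → M → ℝ) where
  U : Bool → Set M
  A : Bool → Set M
  φ : Bool → M → ℝ
  p : M
  q : M
  op : ∀ b, IsOpen (U b)
  con : ∀ b, IsPreconnected (U b)
  cov : ∀ x, x ∈ U false ∨ x ∈ U true
  int : U false ∩ U true = A false ∪ A true
  cA : ∀ b, IsPreconnected (A b)
  pA : p ∈ A false
  qA : q ∈ A true
  sur : ∀ b, ∀ x ∈ U b, Sur {x} (U b)
  sφ : ∀ b, ∀ x ∈ U b, SA I (φ b) x
  dφ : ∀ b, ∀ x ∈ U b, ∀ a, F.D a (φ b) x = ν a x
  ep : φ true p = φ false p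
  eq : φ true q = φ false q + 2 * π

variable {ν : ι → M → ℝ} (c : Cv G.F ν)

theorem Cv.sub (b b' : Bool) : c.A b ⊆ c.U b' := fun x hx => by
  have : x ∈ c.U false ∩ c.U true := c.int ▸ by cases b; exacts [.inl hx, .inr hx]
  cases b'; exacts [this.1, this.2]

theorem Cv.pU (b : Bool) : c.p ∈ c.U b := c.sub _ b c.pA
theorem Cv.qU (b : Bool) : c.q ∈ c.U b := c.sub _ b c.qA

theorem Cv.conn (c : Cv G.F ν) : PreconnectedSpace M :=
  ⟨(eq_univ_of_forall c.cov : c.U false ∪ c.U true = univ) ▸ (c.con _).union _ (c.pU _) (c.pU _) (c.con _)⟩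

/-- `T'` is the transport of `T` along the loop -/
def Hl (W : m.Cn) (W' : m'.Cn) (T T' : CL m.V m'.V) : Prop :=
  ∃ u u', PS G W W' (c.U false) u ∧ PS G W W' (c.U true) u' ∧ u' c.p = u c.p ∧ u c.q = T ∧ u' c.q = T'

variable {c} {T T' T'' R R' : CL m.V m'.V}

theorem exists_hl (h : Fl B G W) (h' : Fl B G W') (i : Itx m m' c.q T) : ∃ T', Hl c W W' T T' :=
  let ⟨u, k, e⟩ := exists_ps h h' (c.op false) (c.qU _) (c.sur _ _ (c.qU _)) i
  let ⟨u', k', e'⟩ := exists_ps h h' (c.op true) (c.pU _) (c.sur _ _ (c.pU _)) (k.it _ (c.pU _))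
  ⟨_, u, u', k, k', e', e, rfl⟩

theorem PS.hl (k : PS G W W' univ u) : Hl c W W' (u c.q) (u c.q) :=
  ⟨u, u, k.mono (subset_univ _), k.mono (subset_univ _), rfl, rfl, rfl⟩

namespace Hl
variable (k : Hl c W W' T T')
include k

theorem it : Itx m m' c.q T' := let ⟨_, _, _, k', _, _, e⟩ := k; e ▸ k'.it _ (c.qU _)

theorem comp {L L' : CL m'.V m''.V} (k' : Hl c W' W'' L L') : Hl c W W'' (L ∘L T) (L' ∘L T') :=
  let ⟨_, _, a1, a2, a3, a4, a5⟩ := k
  let ⟨_, _, b1, b2, b3, b4, b5⟩ := k'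
  ⟨_, _, a1.comp b1, a2.comp b2, by rw [a3, b3], by rw [a4, b4], by rw [a5, b5]⟩

theorem trn (h : Ad B G W) (h' : Ad B G W') : Hl c W' W (An.trn T) (An.trn T') :=
  let ⟨_, _, a1, a2, a3, a4, a5⟩ := k
  ⟨_, _, a1.trn h h', a2.trn h h', by rw [a3], by rw [a4], by rw [a5]⟩

theorem lin (k' : Hl c W W' R R') (r : ℝ) : Hl c W W' (T + r • R) (T' + r • R') :=
  let ⟨_, _, a1, a2, a3, a4, a5⟩ := k
  let ⟨_, _, b1, b2, b3, b4, b5⟩ := k'
  ⟨_, _, a1.lin b1 r, a2.lin b2 r, by rw [a3, b3], by rw [a4, b4], by rw [a5, b5]⟩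

theorem uq (k' : Hl c W W' T T'') (h : Ad B G W) (h' : Ad B G W') : T' = T'' :=
  let ⟨_, _, a1, a2, a3, a4, a5⟩ := k
  let ⟨_, _, b1, b2, b3, b4, b5⟩ := k'
  a5.symm.trans ((a2.eqOn b2 h h' (c.op _) (c.con _) Subset.rfl (c.pU _) (a3.trans ((a1.eqOn b1 h h' (c.op _)
    (c.con _) Subset.rfl (c.qU _) (a4.trans b4.symm) (c.pU _)).trans b3.symm)) (c.qU _)).trans b5)

omit k in
/-- invariant elements extend -/
theorem glob (k : Hl c W W' T T) (h : Ad B G W) (h' : Ad B G W') : ∃ g, PS G W W' univ g ∧ g c.q = T := by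
  classical
  obtain ⟨u, u', a1, a2, a3, a4, a5⟩ := k
  have o := (c.op false).inter (c.op true)
  have e : EqOn u' u (c.U false ∩ c.U true) := fun y hy => by
    have t := fun b => (a2.mono inter_subset_right).eqOn (x := cond b c.q c.p) (a1.mono inter_subset_left) h h' o
      (c.cA b) (subset_inter (c.sub b _) (c.sub b _))
    exact (c.int.le hy).elim (fun k => t false c.pA a3 k) fun k => t true c.qA (a5.trans a4.symm) k
  have k1 := a1.congr (v := (c.U false).piecewise u u') (c.op _) (piecewise_eqOn _ _ _)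
  have k2 := a2.congr (v := (c.U false).piecewise u u') (c.op _) fun y hy => by
    by_cases z : y ∈ c.U false
    · rw [piecewise_eq_of_mem _ _ _ z, e ⟨z, hy⟩]
    · rw [piecewise_eq_of_notMem _ _ _ z]
  exact ⟨_, ⟨fun y _ => (c.cov y).elim (k1.sm y) (k2.sm y), fun y _ => (c.cov y).elim (k1.it y) (k2.it y),
    fun y _ => (c.cov y).elim (k1.par y) (k2.par y)⟩, (piecewise_eq_of_mem _ _ _ (c.qU _)).trans a4⟩

end Hl

/-! ### adding `s ν ξ` -/

/-- the gauge `exp (t ξ)` -/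
def gx (m : Md M ι lam) (ξ : M → m.A) (t : M → ℝ) (x : M) : En (Fin m.N) := cos (t x) • m.p x + sin (t x) • opL (ξ x)

theorem ps_gx {W' : m.Cn} (h : Ad B G W) (k : PS G W W univ fun x => opL (ξ x))
    (sq : ∀ x, opL (ξ x) * opL (ξ x) = -m.p x) {t : M → ℝ} (ht : ∀ x ∈ S, SA I t x)
    (e : ∀ a, ∀ x ∈ S, W' a x = W a x - G.F.D a t x • opL (ξ x)) : PS G W W' S (gx m ξ t) := by
  have p := ps_p h
  have s1 : ∀ x ∈ S, SA I (fun y => cos (t y)) x := fun x hx => (contDiff_cos.contMDiff _).comp x (ht x hx)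
  have s2 : ∀ x ∈ S, SA I (fun y => sin (t y)) x := fun x hx => (contDiff_sin.contMDiff _).comp x (ht x hx)
  refine ⟨fun x hx => (SA.smul (s1 x hx) (p.sm x trivial)).add (SA.smul (s2 x hx) (k.sm x trivial)),
    fun x _ => ?_, fun x hx a => ?_⟩
  · have i := p.it x trivial
    have i' := k.it x trivial
    exact ⟨fun y => by simp [gx, i.pl, i'.pl], fun y => by simp [gx, i.pr, i'.pr], fun a y => by simp [gx, i.ρ, i'.ρ],
      fun y => by simp [gx, i.J, i'.J], fun s y => by simp [gx, i.j, i'.j]⟩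
  · have p1 := p.par x trivial a
    have p2 := k.par x trivial a
    have xp : opL (ξ x) * m.p x = opL (ξ x) := ContinuousLinearMap.ext (k.it x trivial).pr
    have d1 : dv I (G.F.e a) (fun y => cos (t y)) x = -sin (t x) * G.F.D a t x :=
      (dv_comp (ht x hx).md (hasDerivAt_cos _).hasFDerivAt).trans (by simp [mul_comm, Pre.D_def])
    have d2 : dv I (G.F.e a) (fun y => sin (t y)) x = cos (t x) * G.F.D a t x :=
      (dv_comp (ht x hx).md (hasDerivAt_sin _).hasFDerivAt).trans (by simp [mul_comm, Pre.D_def])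
    rw [Pre.D_def] at p1 p2 ⊢
    rw [show gx m ξ t = fun y => cos (t y) • m.p y + sin (t y) • opL (ξ y) from rfl,
      dv_add' (SA.smul (s1 x hx) (p.sm x trivial)) (SA.smul (s2 x hx) (k.sm x trivial)),
      dv_smul (SA.md (s1 x hx)) (p.sm x trivial).md, dv_smul (SA.md (s2 x hx)) (k.sm x trivial).md, e a x hx]
    simp only [d1, d2, ← ContinuousLinearMap.mul_def, mul_add, add_mul, sub_mul, mul_smul_comm,
      smul_mul_assoc, sq, xp] at p1 p2 ⊢
    rw [eq_neg_of_add_eq_zero_left ((add_sub_assoc _ _ _).symm.trans p1),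
      eq_neg_of_add_eq_zero_left ((add_sub_assoc _ _ _).symm.trans p2)]
    module

variable {U : Fin 4 → ι → ℝ} {s₀ : Eu lam} {f : S4 →ₗᵢ[ℝ] m.V} {n : ℍ} {s : ℝ}

theorem gx_eq (F : Fx B m x U s₀ f) (e : opL (ξ x) = Xi f f n) (t : M → ℝ) : gx m ξ t x = Xi f f (ex (t x) n) := by
  rw [gx, ex, map_add, map_smul, F.Xi_coe, e]

section tw
variable {W' : m.Cn} (h : Ad B G W) (l : PS G W W univ fun x => opL (ξ x))
  (sq : ∀ x, opL (ξ x) * opL (ξ x) = -m.p x) (e : ∀ a x, W' a x = W a x + (s * ν a x) • opL (ξ x))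
include h l sq e

theorem ps_tw (b : Bool) : PS G W W' (c.U b) (gx m ξ fun x => -s * c.φ b x) :=
  ps_gx h l sq (fun x hx => SA.mul contMDiffAt_const (c.sφ b x hx)) fun a x hx => by
    rw [e, Pre.D_def, show (fun x => -s * c.φ b x) = (-s) • c.φ b from rfl,
      dv_const_smul _ (c.sφ b x hx).md, ← Pre.D_def, c.dφ b x hx]
    simp

theorem hl_tw (F : Fx B m c.q U s₀ f) (en : opL (ξ c.q) = Xi f f n) :
    Hl c W W' (Xi f f (ex (-s * c.φ false c.q) n)) (Xi f f (ex (-s * (c.φ false c.q + 2 * π)) n)) :=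
  ⟨_, _, ps_tw h l sq e false, ps_tw h l sq e true, by simp only [gx, c.ep], gx_eq F en _,
    (gx_eq F en _).trans (by rw [c.eq])⟩

end tw

end Crest.Agent.X212.Clr59
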